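import Vale.Agent.P205F.InterfacesTwist
import Vale.Agent.P205F.GoodAlg.Base
import Vale.Agent.P205F.Chart.Basic

/-!
# P205, every closed surface: one identity for a compact set of good points
-/

namespace Vale.Agent.P205F.Twist

open scoped ContDiff RealInnerProductSpace Topology Manifold
open Filter Set

/-- The chart of the plane by itself. -/
def idChart : Chart E2 where
  toFun := id
  inv := id
  open_emb := Topology.IsOpenEmbedding.id
  smooth := contMDiff_id
  left_inv _ := rfl
  smooth_inv := contMDiffOn_id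

lemma gdAt_of_den {f : E2 → R4} {x : E2} (I : Ident) (h : 0 < I.den (jet I.N f x)) : GdAt f x :=
  ⟨I, idChart, x, rfl, h⟩

lemma exists_ident_cover (hC : GdChartStmt.{0}) {f : E2 → R4} (hf : ContDiff ℝ ∞ f) {L : Set E2}
    (hL : IsCompact L) (hgd : ∀ x ∈ L, GdAt f x) :
    ∃ I : Ident, ∀ x ∈ L, 0 < I.den (jet I.N f x) := by
  refine hL.induction_on (p := fun s => ∃ I : Ident, ∀ x ∈ s, 0 < I.den (jet I.N f x))
    ⟨⟨0, 0, fun _ => 0, fun _ _ => 0, fun _ => le_rfl, .const 0, fun _ => .const 0,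
      fun f W _ _ x => by simp⟩, fun x hx => hx.elim⟩ ?_ ?_ ?_
  · rintro s t hst ⟨I, hI⟩
    exact ⟨I, fun x hx => hI x (hst hx)⟩
  · rintro s t ⟨I, hI⟩ ⟨J, hJ⟩
    obtain ⟨K, hK⟩ := Ident.exists_add I J
    refine ⟨K, fun x hx => ?_⟩
    rw [hK]
    rcases hx with hx | hx
    · exact add_pos_of_pos_of_nonneg (hI x hx) (J.den_nonneg _)
    · exact add_pos_of_nonneg_of_pos (I.den_nonneg _) (hJ x hx)
  · intro x hx
    obtain ⟨I, hI⟩ := hC E2 f hf.contMDiff idChart x (hgd x hx)
    have hc : Continuous fun z => I.den (jet I.N f z) :=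
      I.den_temperate.1.continuous.comp (continuous_jet hf)
    exact ⟨_, mem_nhdsWithin_of_mem_nhds (hc.continuousAt.eventually (lt_mem_nhds hI)),
      I, fun z hz => hz⟩

end Vale.Agent.P205F.Twist
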