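import Vale.Agent.P205F.InterfacesTwist
import Vale.Agent.P205F.Chart.Transfer
import Vale.Agent.P205F.Chart.Frame
import Vale.Agent.P205F.GoodAlg.Im
import Vale.Agent.P205F.GoodAlg.Base
import Vale.Agent.P205F.NashMoser.Main
import Vale.Agent.P205F.Twist.Cover

/-!
# P205, every closed surface: the exact twists from the expansion, goodness and Nash-Moser

Far from the amplitude the expansion is close to the base, whose goodness is used; near it the
goodness lemma applies. The sum of the two identities gives the right inverse for Nash-Moser.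
-/

namespace Vale.Agent.P205F.Twist

open scoped ContDiff RealInnerProductSpace Topology Manifold
open Filter Set

lemma exists_den_margin (I : Ident) {f : E2 → R4} (hf : ContDiff ℝ ∞ f) {L : Set E2}
    (hL : IsCompact L) (hpos : ∀ x ∈ L, 0 < I.den (jet I.N f x)) :
    ∃ c δ : ℝ, 0 < c ∧ 0 < δ ∧
      ∀ x ∈ L, ∀ z : Jet I.N, ‖z - jet I.N f x‖ < δ → c ≤ I.den z := by
  have hc : Continuous fun x => I.den (jet I.N f x) :=
    I.den_temperate.1.continuous.comp (continuous_jet hf)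
  obtain ⟨c, hc0, hcl⟩ := hL.exists_forall_le' hc.continuousOn hpos
  have hopen : IsOpen {z : Jet I.N | c / 2 < I.den z} :=
    isOpen_lt continuous_const I.den_temperate.1.continuous
  obtain ⟨δ, hδ, hsub⟩ := (hL.image (continuous_jet hf)).exists_thickening_subset_open hopen
    (by rintro _ ⟨x, hx, rfl⟩; exact lt_of_lt_of_le (half_lt_self hc0) (hcl x hx))
  refine ⟨c / 2, δ, half_pos hc0, hδ, fun x hx z hz => le_of_lt (hsub ?_)⟩
  exact Metric.mem_thickening_iff.2 ⟨_, ⟨x, hx, rfl⟩, by rwa [dist_eq_norm]⟩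

lemma exists_lower_bound {V W : Type*} [NormedAddCommGroup V] [NormedSpace ℝ V]
    [FiniteDimensional ℝ V] [NormedAddCommGroup W] [NormedSpace ℝ W] {T : E2 → V →L[ℝ] W}
    (hT : Continuous T) {L : Set E2} (hL : IsCompact L) (hinj : ∀ x ∈ L, Function.Injective (T x)) :
    ∃ C : ℝ, 0 < C ∧ ∀ x ∈ L, ∀ v, ‖v‖ ≤ C * ‖T x v‖ := by
  have hS : IsCompact (L ×ˢ Metric.sphere (0 : V) 1) := hL.prod (isCompact_sphere 0 1)
  have hc : Continuous fun p : E2 × V => ‖T p.1 p.2‖ :=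
    ((hT.comp continuous_fst).clm_apply continuous_snd).norm
  obtain ⟨m, hm, hml⟩ := hS.exists_forall_le' hc.continuousOn (a := 0) fun p hp => by
    obtain ⟨hp1, hp2⟩ := hp
    refine norm_pos_iff.2 fun h0 => ?_
    have := hinj _ hp1 (h0.trans (map_zero (T p.1)).symm)
    simp [this] at hp2
  refine ⟨m⁻¹, inv_pos.2 hm, fun x hx v => ?_⟩
  rcases eq_or_ne v 0 with rfl | hv
  · simp
  have h := hml (x, ‖v‖⁻¹ • v) ⟨hx, by simp [norm_smul, hv]⟩
  simp only [map_smul, norm_smul, norm_inv, norm_norm] at h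
  rw [inv_mul_eq_div, le_div_iff₀ hm]
  rw [inv_mul_eq_div, le_div_iff₀ (norm_pos_iff.2 hv)] at h
  linarith

/-- The differential together with the second derivative along `∂y`. -/
noncomputable def TT (f : E2 → R4) (x : E2) : E2 × ℝ →L[ℝ] R4 :=
  (fderiv ℝ f x).coprod (ContinuousLinearMap.toSpanSingleton ℝ (pd 1 (pd 1 f) x))

lemma TT_apply (f : E2 → R4) (x : E2) (p : E2 × ℝ) :
    TT f x p = fderiv ℝ f x p.1 + p.2 • pd 1 (pd 1 f) x := rfl

lemma continuous_TT {f : E2 → R4} (hf : ContDiff ℝ ∞ f) : Continuous (TT f) := by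
  have h2 : Continuous fun x => pd 1 (pd 1 f) x :=
    (contDiff_pd (contDiff_pd hf 1) 1).continuous
  refine continuous_clm_apply.2 fun p => ?_
  simp only [TT_apply]
  exact ((hf.continuous_fderiv (by simp)).clm_apply continuous_const).add (h2.const_smul p.2)

lemma II_eq (f : E2 → R4) (x : E2) : II f x (ev 1) = nrm f x (pd 1 (pd 1 f) x) := rfl

lemma mem_range_of_nrm_eq_zero {f : E2 → R4} {x : E2} {w : R4} (h : nrm f x w = 0) :
    ∃ v, fderiv ℝ f x v = w := by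
  have hm : w ∈ (LinearMap.range (fderiv ℝ f x).toLinearMap)ᗮᗮ :=
    (Submodule.starProjection_apply_eq_zero_iff _).1 h
  rw [Submodule.orthogonal_orthogonal] at hm
  exact hm

lemma norm_nrm_le (f : E2 → R4) (x : E2) (w : R4) : ‖nrm f x w‖ ≤ ‖w‖ :=
  Submodule.norm_starProjection_apply_le _ _

lemma II_ne_zero_iff {f : E2 → R4} {x : E2} (hf : Function.Injective (fderiv ℝ f x)) :
    II f x (ev 1) ≠ 0 ↔ Function.Injective (TT f x) := by
  rw [II_eq]
  refine ⟨fun h => (injective_iff_map_eq_zero _).2 fun p hp => ?_, fun h h0 => ?_⟩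
  · rw [TT_apply] at hp
    have ht : p.2 = 0 := by
      by_contra ht
      refine h ?_
      have e : pd 1 (pd 1 f) x = fderiv ℝ f x (-p.2⁻¹ • p.1) := by
        rw [map_smul, eq_neg_of_add_eq_zero_left hp, smul_neg, neg_smul, neg_neg, smul_smul,
          inv_mul_cancel₀ ht, one_smul]
      rw [e]
      exact nrm_apply_range f x _
    rw [ht, zero_smul, add_zero] at hp
    exact Prod.ext (hf (hp.trans (map_zero _).symm)) ht
  · obtain ⟨v, hv⟩ := mem_range_of_nrm_eq_zero h0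
    have h2 := @h (v, -1) 0 (by rw [TT_apply, hv, map_zero]; simp)
    simp [Prod.ext_iff] at h2

/-- A quantitative absorber gives a bound below for `TT`. -/
lemma TT_lower {F : E2 → R4} {x : E2} {C : ℝ} (hC : 1 ≤ C)
    (hD : ∀ v, ‖v‖ ≤ C * ‖fderiv ℝ F x v‖) (h2 : ‖pd 1 (pd 1 F) x‖ ≤ C)
    (hII : C⁻¹ ≤ ‖II F x (ev 1)‖) (p : E2 × ℝ) : ‖p‖ ≤ (2 * C ^ 3) * ‖TT F x p‖ := by
  obtain ⟨v, t⟩ := p
  set N := ‖TT F x (v, t)‖ with hN
  have hn : nrm F x (TT F x (v, t)) = t • II F x (ev 1) := by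
    rw [TT_apply, II_eq]
    simp only [nrm, map_add, map_smul]
    rw [show (LinearMap.range (fderiv ℝ F x).toLinearMap)ᗮ.starProjection (fderiv ℝ F x v) = 0
      from nrm_apply_range F x v, zero_add]
  have ht : |t| ≤ C * N := by
    have h := norm_nrm_le F x (TT F x (v, t))
    rw [hn, norm_smul, Real.norm_eq_abs] at h
    have h3 : |t| * C⁻¹ ≤ N := le_trans (mul_le_mul_of_nonneg_left hII (abs_nonneg t)) h
    rwa [← div_eq_mul_inv, div_le_iff₀ (by linarith), mul_comm N] at h3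
  have hv : ‖v‖ ≤ C * (N + C * N * C) := by
    refine (hD v).trans (mul_le_mul_of_nonneg_left ?_ (by linarith))
    have e : fderiv ℝ F x v = TT F x (v, t) - t • pd 1 (pd 1 F) x := by
      rw [TT_apply]
      simp
    rw [e]
    refine (norm_sub_le _ _).trans (add_le_add le_rfl ?_)
    rw [norm_smul, Real.norm_eq_abs]
    exact mul_le_mul ht h2 (norm_nonneg _) (by have := norm_nonneg (TT F x (v, t)); positivity)
  have hN0 : 0 ≤ N := norm_nonneg _
  have hC2 : 1 ≤ C ^ 2 := one_le_pow₀ hC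
  rw [Prod.norm_def, max_le_iff, Real.norm_eq_abs]
  constructor <;> nlinarith [mul_le_mul_of_nonneg_right hC2 (mul_nonneg (by linarith : 0 ≤ C) hN0)]

lemma TT_sub_le {F G : E2 → R4} {x : E2} {η : ℝ} (h1 : ‖fderiv ℝ G x - fderiv ℝ F x‖ ≤ η)
    (h2 : ‖pd 1 (pd 1 G) x - pd 1 (pd 1 F) x‖ ≤ η) (p : E2 × ℝ) :
    ‖TT G x p - TT F x p‖ ≤ 2 * η * ‖p‖ := by
  rw [TT_apply, TT_apply, add_sub_add_comm, ← ContinuousLinearMap.sub_apply, ← smul_sub]
  have e1 := ((fderiv ℝ G x - fderiv ℝ F x).le_opNorm p.1).trans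
    (mul_le_mul h1 (norm_fst_le p) (norm_nonneg _) ((norm_nonneg _).trans h1))
  have e2 : ‖p.2 • (pd 1 (pd 1 G) x - pd 1 (pd 1 F) x)‖ ≤ ‖p‖ * η := by
    rw [norm_smul]
    exact mul_le_mul (norm_snd_le p) h2 (norm_nonneg _) (norm_nonneg _)
  linarith [norm_add_le ((fderiv ℝ G x - fderiv ℝ F x) p.1)
    (p.2 • (pd 1 (pd 1 G) x - pd 1 (pd 1 F) x))]

/-- Bounds below survive small changes. -/
lemma lower_of_close {V W : Type*} [SeminormedAddCommGroup V] [SeminormedAddCommGroup W]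
    {A B : V → W} {C η : ℝ} (hC : 0 ≤ C) (hA : ∀ v, ‖v‖ ≤ C * ‖A v‖)
    (hAB : ∀ v, ‖B v - A v‖ ≤ η * ‖v‖) (hη : C * η ≤ 1 / 2) (v : V) :
    ‖v‖ ≤ 2 * C * ‖B v‖ := by
  have h1 := norm_le_norm_add_norm_sub' (A v) (B v)
  have h2 := hA v
  have h3 := hAB v
  rw [norm_sub_rev] at h3
  have h4 : C * ‖A v‖ ≤ C * (‖B v‖ + η * ‖v‖) := by gcongr; linarith
  nlinarith [mul_le_mul_of_nonneg_right hη (norm_nonneg v)]

lemma injective_of_lower {V W : Type*} [NormedAddCommGroup V] [NormedSpace ℝ V]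
    [NormedAddCommGroup W] [NormedSpace ℝ W] {T : V →L[ℝ] W} {C : ℝ}
    (h : ∀ v, ‖v‖ ≤ C * ‖T v‖) : Function.Injective T :=
  (injective_iff_map_eq_zero T).2 fun v hv => norm_le_zero_iff.1 (by simpa [hv] using h v)

lemma norm_fderiv_sub_le {F G : E2 → R4} (hF : ContDiff ℝ ∞ F) (hG : ContDiff ℝ ∞ G) {x : E2}
    {η : ℝ} (h : ‖iteratedFDeriv ℝ 1 (fun z => G z - F z) x‖ ≤ η) :
    ‖fderiv ℝ G x - fderiv ℝ F x‖ ≤ η := by
  rwa [norm_iteratedFDeriv_one, fderiv_fun_sub (hG.differentiable (by simp) x)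
    (hF.differentiable (by simp) x)] at h

lemma norm_pd_pd_sub_le {F G : E2 → R4} (hF : ContDiff ℝ ∞ F) (hG : ContDiff ℝ ∞ G) {x : E2}
    {η : ℝ} {i : Fin 2} (h : ‖iteratedFDeriv ℝ 2 (fun z => G z - F z) x‖ ≤ η) :
    ‖pd i (pd i G) x - pd i (pd i F) x‖ ≤ η := by
  refine le_trans ?_ h
  have hu : ContDiff ℝ ∞ fun z => G z - F z := hG.sub hF
  have e0 : pd i (fun z => G z - F z) = fun z => pd i G z - pd i F z :=
    funext fun z => pd_sub hG hF i z
  have e : pd i (pd i G) x - pd i (pd i F) x =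
      iteratedFDeriv ℝ 2 (fun z => G z - F z) x fun _ => ev i := by
    rw [iteratedFDeriv_two_apply, ← pd_sub (contDiff_pd hG i) (contDiff_pd hF i), ← e0]
    show fderiv ℝ (fun z => fderiv ℝ (fun y => G y - F y) z (ev i)) x (ev i) = _
    rw [fderiv_clm_apply ((hu.fderiv_right (m := ∞) (by exact_mod_cast le_top)).differentiable
      (by simp) x) (differentiableAt_const _)]
    simp
  rw [e]
  refine (ContinuousMultilinearMap.le_opNorm _ _).trans ?_
  simp [ev]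

/-- The map after Nash-Moser is still uniformly immersed. -/
lemma lowD_of_close {f F f' : E2 → R4} (hf : ContDiff ℝ ∞ f) (hF : ContDiff ℝ ∞ F)
    (hf' : ContDiff ℝ ∞ f') {K L : Set E2} {C₀ C η : ℝ} (hC₀ : 0 ≤ C₀) (hC : 0 ≤ C)
    (hη : (C₀ + C) * η ≤ 1 / 16) (hη0 : 0 ≤ η)
    (hlow₀ : ∀ x ∈ L, ∀ v, ‖v‖ ≤ C₀ * ‖fderiv ℝ f x v‖)
    (hFinj : ∀ x ∈ K, ∀ v, ‖v‖ ≤ C * ‖fderiv ℝ F x v‖)
    (hnear : ∀ x, x ∉ interior K → ∀ n ≤ 2, ‖iteratedFDeriv ℝ n (fun z => F z - f z) x‖ ≤ η)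
    (hd : ∀ x ∈ interior L, ∀ n ≤ 2, ‖iteratedFDeriv ℝ n (fun z => f' z - F z) x‖ ≤ η)
    {x : E2} (hx : x ∈ interior L) (v : E2) : ‖v‖ ≤ 4 * (C₀ + C) * ‖fderiv ℝ f' x v‖ := by
  have h1 : ∀ v, ‖v‖ ≤ 2 * (C₀ + C) * ‖fderiv ℝ F x v‖ := by
    intro v
    by_cases hxK : x ∈ interior K
    · refine (hFinj x (interior_subset hxK) v).trans ?_
      exact mul_le_mul_of_nonneg_right (by linarith) (norm_nonneg _)
    · refine (lower_of_close hC₀ (hlow₀ x (interior_subset hx))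
        (fun v => ((fderiv ℝ F x - fderiv ℝ f x).le_opNorm v).trans (mul_le_mul_of_nonneg_right
          (norm_fderiv_sub_le hf hF (hnear x hxK 1 (by omega))) (norm_nonneg v)))
        (by nlinarith) v).trans ?_
      exact mul_le_mul_of_nonneg_right (by linarith) (norm_nonneg _)
  refine (lower_of_close (by linarith) h1
    (fun v => ((fderiv ℝ f' x - fderiv ℝ F x).le_opNorm v).trans (mul_le_mul_of_nonneg_right
      (norm_fderiv_sub_le hF hf' (hd x hx 1 (by omega))) (norm_nonneg v)))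
    (by nlinarith) v).trans (le_of_eq ?_)
  show 2 * (2 * (C₀ + C)) * ‖fderiv ℝ f' x v‖ = _
  ring

/-- The absorber survives. -/
lemma TT_injective_of_close {f F f' : E2 → R4} (hf : ContDiff ℝ ∞ f) (hF : ContDiff ℝ ∞ F)
    (hf' : ContDiff ℝ ∞ f') {K L : Set E2} {C₂ C η : ℝ} (hC₂ : 0 ≤ C₂) (hC : 1 ≤ C)
    (hη : (C₂ + 2 * C ^ 3) * η ≤ 1 / 16) (hη0 : 0 ≤ η)
    (hlow₂ : ∀ x ∈ L, ∀ q, ‖q‖ ≤ C₂ * ‖TT f x q‖)
    (hFinj : ∀ x ∈ K, ∀ v, ‖v‖ ≤ C * ‖fderiv ℝ F x v‖)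
    (hF2 : ∀ x ∈ K, ‖pd 1 (pd 1 F) x‖ ≤ C) (hFII : ∀ x ∈ K, C⁻¹ ≤ ‖II F x (ev 1)‖)
    (hnear : ∀ x, x ∉ interior K → ∀ n ≤ 2, ‖iteratedFDeriv ℝ n (fun z => F z - f z) x‖ ≤ η)
    (hd : ∀ x ∈ interior L, ∀ n ≤ 2, ‖iteratedFDeriv ℝ n (fun z => f' z - F z) x‖ ≤ η)
    {x : E2} (hx : x ∈ interior L) : Function.Injective (TT f' x) := by
  have hC3 : 0 ≤ C ^ 3 := by positivity
  have h1 : ∀ q, ‖q‖ ≤ 2 * (C₂ + 2 * C ^ 3) * ‖TT F x q‖ := by
    intro q
    by_cases hxK : x ∈ interior K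
    · refine (TT_lower hC (hFinj x (interior_subset hxK)) (hF2 x (interior_subset hxK))
        (hFII x (interior_subset hxK)) q).trans ?_
      exact mul_le_mul_of_nonneg_right (by linarith) (norm_nonneg _)
    · refine (lower_of_close hC₂ (hlow₂ x (interior_subset hx))
        (TT_sub_le (norm_fderiv_sub_le hf hF (hnear x hxK 1 (by omega)))
          (norm_pd_pd_sub_le hf hF (hnear x hxK 2 le_rfl))) (by nlinarith) q).trans ?_
      exact mul_le_mul_of_nonneg_right (by linarith) (norm_nonneg _)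
  exact injective_of_lower (lower_of_close (by positivity) h1
    (TT_sub_le (norm_fderiv_sub_le hF hf' (hd x hx 1 (by omega)))
      (norm_pd_pd_sub_le hF hf' (hd x hx 2 le_rfl))) (by nlinarith))

/-- Normals of the base stay transversal. -/
lemma nrm_ne_zero_of_close {f F f' : E2 → R4} (hF : ContDiff ℝ ∞ F) (hf' : ContDiff ℝ ∞ f')
    {C A η : ℝ} (hC : 0 ≤ C) (hη0 : 0 ≤ η) (hη : C * A * η < 1) {x : E2}
    (hlow : ∀ v, ‖v‖ ≤ A * ‖fderiv ℝ f' x v‖)
    (hnrm : ∀ w, nrm f x w = w → ‖w‖ ≤ C * ‖nrm F x w‖)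
    (hd : ‖iteratedFDeriv ℝ 1 (fun z => f' z - F z) x‖ ≤ η) {w : R4} (hw : nrm f x w = w)
    (hw0 : w ≠ 0) : nrm f' x w ≠ 0 := by
  intro h0
  obtain ⟨v, hv⟩ := mem_range_of_nrm_eq_zero h0
  have h2 : ‖nrm F x w‖ ≤ η * ‖v‖ := by
    have e : nrm F x w = nrm F x ((fderiv ℝ f' x - fderiv ℝ F x) v) := by
      rw [ContinuousLinearMap.sub_apply, hv]
      simp only [nrm, map_sub]
      rw [show (LinearMap.range (fderiv ℝ F x).toLinearMap)ᗮ.starProjection
        (fderiv ℝ F x v) = 0 from nrm_apply_range F x v, sub_zero]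
    rw [e]
    exact (norm_nrm_le _ _ _).trans (((fderiv ℝ f' x - fderiv ℝ F x).le_opNorm v).trans
      (mul_le_mul_of_nonneg_right (norm_fderiv_sub_le hF hf' hd) (norm_nonneg v)))
  have h3 := hlow v
  rw [hv] at h3
  have h4 : ‖w‖ ≤ C * (η * (A * ‖w‖)) :=
    (hnrm w hw).trans (mul_le_mul_of_nonneg_left
      (h2.trans (mul_le_mul_of_nonneg_left h3 hη0)) hC)
  nlinarith [norm_pos_iff.2 hw0]

lemma pos_of_bound {C : ℝ} {T : E2 →L[ℝ] R4} (h : ‖ev 1‖ ≤ C * ‖T (ev 1)‖) : 0 < C := by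
  by_contra hC
  have hn : ‖ev 1‖ = 1 := by simp [ev]
  nlinarith [norm_nonneg (T (ev 1))]

lemma nrm_arith {C C₀ η : ℝ} (h : (C * C + C₀ * C) * η ≤ 1 / 64) :
    C * (4 * (C₀ + C)) * η < 1 := by
  nlinarith

/-- What an expansion gives for one datum; `keep = true`: `II(∂x,∂x)` is bounded below. -/
def Expands (b keep : Bool) (f : E2 → R4) (a : E2 → ℝ) (ν : E2 → Fin 2 → ℝ) (U : Set E2) : Prop :=
  ∀ K K' : Set E2, IsCompact K → IsCompact K' → tsupport a ⊆ interior K → K ⊆ interior K' →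
    K' ⊆ U → ∀ q : ℕ, ∃ e₁ : ℕ, ∀ κ : ℕ, ∃ e₂ : ℕ, ∀ m : ℕ, ∃ (d : ℕ) (C : ℝ) (M₀ : ℕ),
      ∀ M, M₀ ≤ M → ∃ (F : (Fin d → ℝ) → E2 → R4) (δ : (Fin d → ℝ) → E2 → ℝ),
        Fam b F K C e₁ κ e₂ M ∧ ∀ l ∈ Box d,
          let err : E2 → S3 := fun x =>
            met (F l) x - met f x - a x ^ 2 • sq ![1, 0] - δ l x • sq (ν x)
          ContDiff ℝ ∞ (δ l) ∧ IsImm (F l) ∧
          (∀ x, x ∉ K' → F l x = f x ∧ δ l x = 0) ∧
          (b = true → ∀ x, δ l x = 0) ∧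
          (∀ x, ‖F l x - f x‖ ≤ C / M ∧ |δ l x| ≤ C / M) ∧
          (∀ x ∈ K', ∀ n ≤ m,
            ‖iteratedFDeriv ℝ n (F l) x‖ ≤ C * ((M : ℝ) ^ (κ + 2)) ^ n ∧
            ‖iteratedFDeriv ℝ n err x‖ ≤ C * ((M : ℝ) ^ (κ + 2)) ^ n / (M : ℝ) ^ m) ∧
          (∀ x, x ∉ interior K → ∀ n < q,
            ‖iteratedFDeriv ℝ n (fun z => F l z - f z) x‖ ≤ C / (M : ℝ) ^ (q - n)) ∧
          (∀ x w, nrm f x w = w → ‖w‖ ≤ C * ‖nrm (F l) x w‖) ∧
          (keep = true → ∀ x ∈ K, C⁻¹ ≤ ‖II (F l) x (ev 0)‖)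

lemma II_ne_zero_of_close {F G : E2 → R4} {x : E2} {i : Fin 2} {η A W γ : ℝ} (hA : 0 ≤ A)
    (h1 : ‖fderiv ℝ G x - fderiv ℝ F x‖ ≤ η) (h2 : ‖pd i (pd i G) x - pd i (pd i F) x‖ ≤ η)
    (hlow : ∀ v, ‖v‖ ≤ A * ‖fderiv ℝ G x v‖) (hW : ‖pd i (pd i F) x‖ ≤ W)
    (hγ : γ ≤ ‖II F x (ev i)‖) (hsmall : η * (1 + A * (W + η)) < γ) : II G x (ev i) ≠ 0 := by
  intro h0
  obtain ⟨v, hv⟩ := mem_range_of_nrm_eq_zero (w := pd i (pd i G) x) h0
  have hη : 0 ≤ η := (norm_nonneg _).trans h1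
  have hv' : ‖v‖ ≤ A * (W + η) := by
    refine (hlow v).trans (mul_le_mul_of_nonneg_left ?_ hA)
    rw [hv]
    linarith [norm_le_norm_add_norm_sub' (pd i (pd i G) x) (pd i (pd i F) x)]
  have e : II F x (ev i) = nrm F x ((fderiv ℝ G x - fderiv ℝ F x) v)
      - nrm F x (pd i (pd i G) x - pd i (pd i F) x) := by
    rw [show II F x (ev i) = nrm F x (pd i (pd i F) x) from rfl,
      ContinuousLinearMap.sub_apply, hv]
    simp only [nrm, map_sub]
    rw [show (LinearMap.range (fderiv ℝ F x).toLinearMap)ᗮ.starProjection (fderiv ℝ F x v) = 0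
      from nrm_apply_range F x v]
    abel
  have h3 : ‖II F x (ev i)‖ ≤ η * ‖v‖ + η := by
    rw [e]
    exact (norm_sub_le _ _).trans (add_le_add ((norm_nrm_le _ _ _).trans
      (((fderiv ℝ G x - fderiv ℝ F x).le_opNorm v).trans
        (mul_le_mul_of_nonneg_right h1 (norm_nonneg v)))) ((norm_nrm_le _ _ _).trans h2))
  have h4 := mul_le_mul_of_nonneg_left hv' hη
  linarith

lemma exists_keep_bound {keep : Bool} {f : E2 → R4} (hf : ContDiff ℝ ∞ f) (himm : IsImm f)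
    {L : Set E2} (hL : IsCompact L) (h : keep = true → ∀ x ∈ L, II f x (ev 0) ≠ 0) :
    ∃ γ W₀ : ℝ, 0 < γ ∧ 0 ≤ W₀ ∧
      (keep = true → ∀ x ∈ L, ‖pd 0 (pd 0 f) x‖ ≤ W₀ ∧ γ ≤ ‖II f x (ev 0)‖) := by
  cases keep
  · exact ⟨1, 0, one_pos, le_rfl, fun h => absurd h (by simp)⟩
  · have h2 := (contDiff_pd (contDiff_pd hf 0) 0).continuous
    obtain ⟨W₀, hW⟩ := hL.exists_bound_of_continuousOn h2.continuousOn
    have hc : Continuous fun x => ‖II f x (ev 0)‖ :=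
      ((contDiff_nrmL hf himm).continuous.clm_apply h2).norm
    obtain ⟨γ, hγ, hγ'⟩ := hL.exists_forall_le' hc.continuousOn (a := 0) fun x hx =>
      norm_pos_iff.2 (h rfl x hx)
    exact ⟨γ, max W₀ 0, hγ, le_max_right _ _,
      fun _ x hx => ⟨(hW x hx).trans (le_max_left _ _), hγ' x hx⟩⟩

/-- `II(∂x,∂x)` survives. -/
lemma II0_of_close {f F f' : E2 → R4} (hF : ContDiff ℝ ∞ F) (hf : ContDiff ℝ ∞ f)
    (hf' : ContDiff ℝ ∞ f') {K : Set E2} {A C Cp γ W₀ : ℝ} {M : ℕ} (hA : 0 ≤ A) (hC : 1 ≤ C)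
    (hCp : 0 ≤ Cp) (hγ : 0 < γ) (hW : 0 ≤ W₀)
    (hM : 2 * (C + Cp) * (1 + A * (W₀ + 1)) / γ + C * Cp * (1 + A * (C + 1)) + 2 * (C + Cp) + 1 ≤
      (M : ℝ)) {x : E2} (hlow : ∀ v, ‖v‖ ≤ A * ‖fderiv ℝ f' x v‖)
    (hin : x ∈ interior K → ‖pd 0 (pd 0 F) x‖ ≤ C * M ∧ C⁻¹ ≤ ‖II F x (ev 0)‖)
    (hout : x ∉ interior K →
      (∀ n ≤ 2, ‖iteratedFDeriv ℝ n (fun z => F z - f z) x‖ ≤ (C + Cp) / M) ∧
        ‖pd 0 (pd 0 f) x‖ ≤ W₀ ∧ γ ≤ ‖II f x (ev 0)‖)
    (hd : ∀ n ≤ 2, ‖iteratedFDeriv ℝ n (fun z => f' z - F z) x‖ ≤ (C + Cp) / M)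
    (hd2 : ∀ n ≤ 2, ‖iteratedFDeriv ℝ n (fun z => f' z - F z) x‖ ≤ Cp / (M : ℝ) ^ 2) :
    II f' x (ev 0) ≠ 0 := by
  have n6 : 0 ≤ 2 * (C + Cp) * (1 + A * (W₀ + 1)) / γ := by positivity
  have n7 : 0 ≤ C * Cp * (1 + A * (C + 1)) := by positivity
  have hM1 : (1 : ℝ) ≤ M := by linarith
  have hM0 : (0 : ℝ) < M := by linarith
  by_cases hxK : x ∈ interior K
  · refine II_ne_zero_of_close (A := A) (W := C * M) (γ := C⁻¹) hA
      (norm_fderiv_sub_le hF hf' (hd2 1 (by omega)))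
      (norm_pd_pd_sub_le hF hf' (hd2 2 le_rfl)) hlow (hin hxK).1 (hin hxK).2 ?_
    have e1 : Cp / (M : ℝ) ^ 2 ≤ M := by
      rw [div_le_iff₀ (by positivity)]
      calc Cp ≤ (M : ℝ) * 1 := by linarith
        _ ≤ (M : ℝ) * (M : ℝ) ^ 2 := mul_le_mul_of_nonneg_left (one_le_pow₀ hM1) hM0.le
    have e2 : 1 + A * (C * M + Cp / (M : ℝ) ^ 2) ≤ (1 + A * (C + 1)) * M := by
      have := mul_le_mul_of_nonneg_left e1 hA
      linarith
    refine lt_of_le_of_lt (mul_le_mul_of_nonneg_left e2 (by positivity)) ?_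
    rw [inv_eq_one_div, lt_div_iff₀ (by linarith),
      show Cp / (M : ℝ) ^ 2 * ((1 + A * (C + 1)) * M) * C = C * Cp * (1 + A * (C + 1)) / M by
        field_simp, div_lt_one hM0]
    linarith
  · obtain ⟨hnear, hW', hγ'⟩ := hout hxK
    refine II_ne_zero_of_close (η := 2 * ((C + Cp) / M)) (A := A) (W := W₀) (γ := γ) hA ?_ ?_
      hlow hW' hγ' ?_
    · linarith [norm_fderiv_sub_le hF hf' (hd 1 (by omega)),
        norm_fderiv_sub_le hf hF (hnear 1 (by omega)),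
        norm_sub_le_norm_sub_add_norm_sub (fderiv ℝ f' x) (fderiv ℝ F x) (fderiv ℝ f x)]
    · linarith [norm_pd_pd_sub_le (i := 0) hF hf' (hd 2 le_rfl),
        norm_pd_pd_sub_le (i := 0) hf hF (hnear 2 le_rfl),
        norm_sub_le_norm_sub_add_norm_sub (pd 0 (pd 0 f') x) (pd 0 (pd 0 F) x) (pd 0 (pd 0 f) x)]
    · have e1 : 2 * ((C + Cp) / M) ≤ 1 := by
        rw [← mul_div_assoc, div_le_one hM0]
        linarith
      have e2 : 1 + A * (W₀ + 2 * ((C + Cp) / M)) ≤ 1 + A * (W₀ + 1) := by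
        have := mul_le_mul_of_nonneg_left e1 hA
        linarith
      refine lt_of_le_of_lt (mul_le_mul_of_nonneg_left e2 (by positivity)) ?_
      rw [← mul_div_assoc, div_mul_eq_mul_div, div_lt_iff₀ hM0, ← div_lt_iff₀' hγ]
      linarith

/-- An exact twist from the modules; `b = true`: no error and the absorber survives. -/
theorem twist_core (b keep : Bool) (hG : GoodProbStmt b) (hT : TransposeStmt)
    (hC : GdChartStmt.{0}) (hN : NMStmt) {f : E2 → R4} {a : E2 → ℝ} {ν : E2 → Fin 2 → ℝ}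
    {U : Set E2} (hE : Expands b keep f a ν U)
    (hkeep : keep = true → ∀ x ∈ U, II f x (ev 0) ≠ 0)
    (hf : ContDiff ℝ ∞ f) (himm : IsImm f) (ha : ContDiff ℝ ∞ a)
    (hac : HasCompactSupport a) (hU : IsOpen U) (haU : tsupport a ⊆ U)
    (hν : ∀ i, ContDiff ℝ ∞ fun x => ν x i)
    (hb : b = true → ∀ x ∈ U, II f x (ev 1) ≠ 0)
    (hgd : ∀ x ∈ U, GdAt f x) {ε : ℝ} (hε : 0 < ε) :
    ∃ (f' : E2 → R4) (δ : E2 → ℝ), ContDiff ℝ ∞ f' ∧ ContDiff ℝ ∞ δ ∧ IsImm f' ∧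
      (∃ K, IsCompact K ∧ K ⊆ U ∧ ∀ x, x ∉ K → f' x = f x) ∧
      HasCompactSupport δ ∧ tsupport δ ⊆ U ∧ (∀ x, |δ x| ≤ ε) ∧ (b = true → ∀ x, δ x = 0) ∧
      (∀ x, met f' x = met f x + a x ^ 2 • sq ![1, 0] + δ x • sq (ν x)) ∧
      (∀ x ∈ U, GdAt f' x) ∧ (b = true → ∀ x ∈ U, II f' x (ev 1) ≠ 0) ∧
      (keep = true → ∀ x ∈ U, II f' x (ev 0) ≠ 0) ∧
      ∀ x w, nrm f x w = w → w ≠ 0 → nrm f' x w ≠ 0 := by
  obtain ⟨K, hK, haK, hKU⟩ := exists_compact_between hac hU haU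
  obtain ⟨K', hK', hKK', hK'U⟩ := exists_compact_between hK hU hKU
  obtain ⟨L, hL, hK'L, hLU⟩ := exists_compact_between hK' hU hK'U
  obtain ⟨If, hIf⟩ := exists_ident_cover hC hf hL fun x hx => hgd x (hLU hx)
  obtain ⟨c₀, δ₀, hc₀, hδ₀, hmargin⟩ := exists_den_margin If hf hL hIf
  obtain ⟨I, hI⟩ := hG
  obtain ⟨J, hJ⟩ := Ident.exists_add I If
  obtain ⟨D, hD⟩ := hT J
  obtain ⟨k, s, hNM⟩ := hN D 2
  obtain ⟨Cn, hCn⟩ := hNM (interior L) K' isOpen_interior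
    (hL.isBounded.subset interior_subset) hK' hK'L
  obtain ⟨C₀, hC₀, hlow₀⟩ := exists_lower_bound (hf.continuous_fderiv (by simp)) hL
    fun x _ => himm x
  obtain ⟨C₂, hC₂, hlow₂⟩ : ∃ C₂ : ℝ, 0 < C₂ ∧
      (b = true → ∀ x ∈ L, ∀ p, ‖p‖ ≤ C₂ * ‖TT f x p‖) := by
    cases b
    · exact ⟨1, one_pos, fun h => absurd h (by simp)⟩
    · obtain ⟨C₂, h, h'⟩ := exists_lower_bound (continuous_TT hf) hL fun x hx =>
        (II_ne_zero_iff (himm x)).1 (hb rfl x (hLU hx))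
      exact ⟨C₂, h, fun _ => h'⟩
  obtain ⟨γ, W₀, hγ, hW₀0, hγl⟩ := exists_keep_bound (keep := keep) hf himm hL
    fun h x hx => hkeep h x (hLU hx)
  have hfb : ∀ n, ∃ B, ∀ x ∈ L, ‖iteratedFDeriv ℝ n f x‖ ≤ B := fun n =>
    hL.exists_bound_of_continuousOn
      (hf.continuous_iteratedFDeriv (by exact_mod_cast le_top)).continuousOn
  choose Bf hBf using hfb
  obtain ⟨e₁, he₁⟩ := hE K K' hK hK' haK hKK' hK'U (If.N + 3)
  obtain ⟨κ, hκ⟩ := hI e₁
  obtain ⟨e₂, he₂⟩ := he₁ κ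
  obtain ⟨e₃, he₃⟩ := hκ e₂
  set p := (κ + 2) * k + e₃ + 1 with hp
  set m := p * (s + 1) + k + 2 with hm
  obtain ⟨d, C, M₁, hM₁⟩ := he₂ m
  obtain ⟨c, hc, M₂, hM₂⟩ := he₃ d K C hK
  set C' := max C 1 with hC'
  set Cp := max Cn 0 with hCp
  set sF := ∑ n ∈ Finset.range (k + 1), |Bf n| with hsF
  set low := C₀ + C' + C₂ + 2 * C' ^ 3 + 1 with hlow
  have hC'1 : 1 ≤ C' := le_max_right _ _
  have hlow1 : 1 ≤ low := by
    have : 0 ≤ C' ^ 3 := by positivity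
    linarith
  set A := 4 * (C₀ + C') with hAdef
  set Tk := 2 * (C' + Cp) * (1 + A * (W₀ + 1)) / γ + C' * Cp * (1 + A * (C' + 1)) + 2 * (C' + Cp)
    with hTk
  obtain ⟨M, hMr, hMM₁, hMM₂⟩ : ∃ M : ℕ, C' + c⁻¹ + c₀⁻¹ + sF + C' / δ₀ + C' / ε + Cp + Tk +
      64 * (low + C' * C' + C₀ * C') * (C' + Cp) + 1 ≤ (M : ℝ) ∧ M₁ ≤ M ∧ M₂ ≤ M :=
    ((tendsto_natCast_atTop_atTop.eventually_ge_atTop _).and
      ((eventually_ge_atTop M₁).and (eventually_ge_atTop M₂))).exists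
  have hsF0 : 0 ≤ sF := Finset.sum_nonneg fun n _ => abs_nonneg _
  have hCp0 : 0 ≤ Cp := le_max_right _ _
  have n1 : 0 < c⁻¹ := inv_pos.2 hc
  have n2 : 0 < c₀⁻¹ := inv_pos.2 hc₀
  have n3 : 0 < C' / δ₀ := div_pos (by linarith) hδ₀
  have n4 : 0 < C' / ε := div_pos (by linarith) hε
  have n5 : 0 ≤ 64 * (low + C' * C' + C₀ * C') * (C' + Cp) := by positivity
  have n6 : 0 ≤ 2 * (C' + Cp) * (1 + A * (W₀ + 1)) / γ := by positivity
  have n7 : 0 ≤ C' * Cp * (1 + A * (C' + 1)) := by positivity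
  have n8 : 0 ≤ 2 * (C' + Cp) := by positivity
  have hM1 : (1 : ℝ) ≤ M := by linarith
  have hM0 : (0 : ℝ) < M := by linarith
  -- small constant
  set η := (C' + Cp) / (M : ℝ) with hη
  have hη0 : 0 ≤ η := by positivity
  have hηlow : 64 * (low + C' * C' + C₀ * C') * η ≤ 1 := by
    rw [hη, ← mul_div_assoc, div_le_one hM0]
    linarith
  have hCη : C / M ≤ η := div_le_div_of_nonneg_right (by linarith [le_max_left C 1]) hM0.le
  have hCnη : Cp / M ≤ η := div_le_div_of_nonneg_right (by linarith) hM0.le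
  obtain ⟨Fl, δl, hFam, hl⟩ := hM₁ M hMM₁
  obtain ⟨l, hlBox, hgood⟩ := hM₂ M hMM₂ Fl hFam
  obtain ⟨hδs, hFimm, hoff, hδb, hclose, hbd, hnear, hnrm, hFk⟩ := hl l hlBox
  obtain ⟨hFs, -, hFinj, hFjet, hFII, -, -⟩ := hFam
  set F := Fl l with hF
  set δ := δl l with hδ
  have hFc : ContDiff ℝ ∞ F := hFs.comp (contDiff_prodMk_right l)
  set g : E2 → S3 := fun x => met f x + a x ^ 2 • sq ![1, 0] + δ x • sq (ν x) with hg
  have hsq : ContDiff ℝ ∞ fun x => sq (ν x) := contDiff_pi.2 fun i => by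
    fin_cases i
    · simpa [sq] using (hν 0).pow 2
    · simpa [sq] using (hν 0).mul (hν 1)
    · simpa [sq] using (hν 1).pow 2
  have hgc : ContDiff ℝ ∞ g :=
    ((NM.smooth_met hf).add ((ha.pow 2).smul contDiff_const)).add (hδs.smul hsq)
  have hev : ∀ x ∉ K', F =ᶠ[𝓝 x] f := fun x hx =>
    mem_of_superset (hK'.isClosed.isOpen_compl.mem_nhds hx) fun y hy => (hoff y hy).1
  have hz : ∀ x ∉ K', g x - met F x = 0 := fun x hx => by
    have e : met F x = met f x := by simp [met, pd, (hev x hx).fderiv_eq]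
    have ha0 : a x = 0 := image_eq_zero_of_notMem_tsupport fun h =>
      hx (interior_subset (hKK' (interior_subset (haK h))))
    simp [hg, e, ha0, (hoff x hx).2]
  have hsupp : tsupport (fun x => g x - met F x) ⊆ K' :=
    closure_minimal (fun x hx => by_contra fun h => hx (hz x h)) hK'.isClosed
  have hCM : C ≤ (M : ℝ) := le_trans (le_max_left C 1) (by linarith)
  have hCpow : ∀ n ≤ k, C * ((M : ℝ) ^ (κ + 2)) ^ n ≤ (M : ℝ) ^ p := fun n hn => by
    calc C * ((M : ℝ) ^ (κ + 2)) ^ n ≤ (M : ℝ) * (M : ℝ) ^ ((κ + 2) * n) := by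
          rw [pow_mul]; exact mul_le_mul_of_nonneg_right hCM (by positivity)
      _ = (M : ℝ) ^ ((κ + 2) * n + 1) := by ring
      _ ≤ (M : ℝ) ^ p := pow_le_pow_right₀ hM1 (by
          have := Nat.mul_le_mul_left (κ + 2) hn
          omega)
  have hkm : k ≤ m := by omega
  have hBdF : BdOn F (interior L) k ((M : ℝ) ^ p) := fun x hx n hn => by
    by_cases hxK : x ∈ K'
    · exact ((hbd x hxK n (hn.trans hkm)).1).trans (hCpow n hn)
    · rw [((hev x hxK).iteratedFDeriv ℝ n).eq_of_nhds]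
      have h1 : |Bf n| ≤ sF := Finset.single_le_sum (f := fun i => |Bf i|)
        (fun i _ => abs_nonneg _) (Finset.mem_range.2 (by omega))
      calc _ ≤ Bf n := hBf n x (interior_subset hx)
        _ ≤ (M : ℝ) := by linarith [le_abs_self (Bf n)]
        _ ≤ (M : ℝ) ^ p := le_self_pow₀ hM1 (by omega)
  have hBde : BdOn (fun x => g x - met F x) (interior L) k ((M : ℝ) ^ p / (M : ℝ) ^ m) :=
    fun x _ n hn => by
    by_cases hxK : x ∈ K'
    · have e : (fun x => g x - met F x) =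
          -(fun x => met F x - met f x - a x ^ 2 • sq ![1, 0] - δ x • sq (ν x)) := by
        funext y
        simp only [hg, Pi.neg_apply]
        abel
      rw [e, iteratedFDeriv_neg, Pi.neg_apply, norm_neg]
      exact ((hbd x hxK n (hn.trans hkm)).2).trans
        (div_le_div_of_nonneg_right (hCpow n hn) (by positivity))
    · have e : (fun x => g x - met F x) =ᶠ[𝓝 x] fun _ => 0 :=
        mem_of_superset (hK'.isClosed.isOpen_compl.mem_nhds hxK) fun y hy => hz y hy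
      rw [(e.iteratedFDeriv ℝ n).eq_of_nhds]
      simp only [iteratedFDeriv_fun_zero, Pi.zero_apply, norm_zero]
      exact div_nonneg (pow_nonneg hM0.le _) (pow_nonneg hM0.le _)
  have hjet : ∀ x, x ∉ interior K → ∀ n ≤ If.N + 2,
      ‖iteratedFDeriv ℝ n (fun z => F z - f z) x‖ ≤ C' / M := fun x hx n hn =>
    (hnear x hx n (by omega)).trans ((div_le_div_of_nonneg_right (le_max_left C 1)
      (by positivity)).trans (div_le_div_of_nonneg_left (by linarith) hM0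
        (le_self_pow₀ hM1 (by omega))))
  have hden : ∀ x ∈ interior L, ((M : ℝ) ^ p)⁻¹ ≤ D.den (jet D.N F x) := fun x hx => by
    rw [hD F hFc x, hJ]
    by_cases hxK : x ∈ interior K
    · refine le_trans ?_ (le_add_of_nonneg_right (If.den_nonneg _))
      refine le_trans ?_ (hgood x (interior_subset hxK))
      rw [inv_eq_one_div, div_le_div_iff₀ (by positivity) (by positivity)]
      calc 1 * (M : ℝ) ^ e₃ ≤ (c * M) * (M : ℝ) ^ e₃ := by
            refine mul_le_mul_of_nonneg_right ?_ (by positivity)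
            rw [← inv_le_iff_one_le_mul₀' hc]
            linarith
        _ = c * (M : ℝ) ^ (e₃ + 1) := by ring
        _ ≤ c * (M : ℝ) ^ p :=
            mul_le_mul_of_nonneg_left (pow_le_pow_right₀ hM1 (by omega)) hc.le
    · refine le_trans ?_ (le_add_of_nonneg_left (I.den_nonneg _))
      refine le_trans ?_ (hmargin x (interior_subset hx) _ (lt_of_le_of_lt
        ((pi_norm_le_iff_of_nonneg (r := C' / M) (by positivity)).2 fun n => ?_) ?_))
      · rw [inv_le_comm₀ (by positivity) hc₀]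
        exact le_trans (by linarith) (le_self_pow₀ hM1 (by omega))
      · show ‖iteratedFDeriv ℝ (n : ℕ) F x - iteratedFDeriv ℝ (n : ℕ) f x‖ ≤ _
        rw [← iteratedFDeriv_sub_apply (hFc.of_le (by exact_mod_cast le_top)).contDiffAt
          (hf.of_le (by exact_mod_cast le_top)).contDiffAt]
        exact hjet x hxK n (by omega)
      · rw [div_lt_iff₀ hM0, ← div_lt_iff₀' hδ₀]
        linarith
  have hsmall2 : Cn * ((M : ℝ) ^ p) ^ s * ((M : ℝ) ^ p / (M : ℝ) ^ m) ≤ Cp / (M : ℝ) ^ 2 := by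
    rw [mul_assoc, ← mul_div_assoc, ← pow_succ, ← pow_mul]
    calc Cn * ((M : ℝ) ^ (p * (s + 1)) / (M : ℝ) ^ m)
        ≤ Cp * ((M : ℝ) ^ (p * (s + 1)) / (M : ℝ) ^ m) :=
          mul_le_mul_of_nonneg_right (le_max_left _ _) (by positivity)
      _ ≤ Cp * (1 / (M : ℝ) ^ 2) := by
          refine mul_le_mul_of_nonneg_left ?_ hCp0
          rw [div_le_div_iff₀ (by positivity) (by positivity), one_mul, ← pow_add]
          exact pow_le_pow_right₀ hM1 (by omega)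
      _ = Cp / (M : ℝ) ^ 2 := mul_one_div _ _
  have hsmall : Cn * ((M : ℝ) ^ p) ^ s * ((M : ℝ) ^ p / (M : ℝ) ^ m) ≤ Cp / M :=
    hsmall2.trans (div_le_div_of_nonneg_left hCp0 hM0 (le_self_pow₀ hM1 two_ne_zero))
  have hsmall1 : Cp / (M : ℝ) ≤ 1 := (div_le_one hM0).2 (by linarith)
  obtain ⟨f', hf', ⟨K'', hK'', hK''L, hout⟩, hmet, hdiff, hden'⟩ :=
    hCn F g ((M : ℝ) ^ p) ((M : ℝ) ^ p / (M : ℝ) ^ m) hFc hgc (one_le_pow₀ hM1)
      (by positivity) hBdF hden hsupp hBde (hsmall.trans hsmall1)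
  have hd : ∀ x ∈ interior L, ∀ n ≤ 2, ‖iteratedFDeriv ℝ n (fun z => f' z - F z) x‖ ≤ η :=
    fun x hx n hn => (hdiff x hx n hn).trans (hsmall.trans hCnη)
  have hd0 : ∀ x ∉ interior L, f' =ᶠ[𝓝 x] f := fun x hx => by
    filter_upwards [(hK''.union hK').isClosed.isOpen_compl.mem_nhds
      (fun h => hx (h.elim (fun h => hK''L h) fun h => hK'L h))] with y hy
    simp only [mem_compl_iff, mem_union, not_or] at hy
    rw [hout y hy.1, (hoff y hy.2).1]
  have hsmallη : ∀ A : ℝ, A ≤ low + C' * C' + C₀ * C' → A * η ≤ 1 / 64 := fun A hA => by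
    have := mul_le_mul_of_nonneg_right hA hη0
    linarith
  have hC3 : 0 ≤ C' ^ 3 := pow_nonneg (by linarith) 3
  have hCC : 0 ≤ C' * C' := mul_self_nonneg _
  have hC0C : 0 ≤ C₀ * C' := mul_nonneg hC₀.le (by linarith)
  have hnear2 : ∀ x, x ∉ interior K → ∀ n ≤ 2,
      ‖iteratedFDeriv ℝ n (fun z => F z - f z) x‖ ≤ η := fun x hx n hn =>
    (hjet x hx n (by omega)).trans (div_le_div_of_nonneg_right (by linarith) hM0.le)
  have hFinj' : ∀ x ∈ K, ∀ v, ‖v‖ ≤ C' * ‖fderiv ℝ F x v‖ := fun x hx v =>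
    (hFinj l hlBox x hx v).trans
      (mul_le_mul_of_nonneg_right (le_max_left C 1) (norm_nonneg _))
  have hlowD : ∀ x ∈ interior L, ∀ v, ‖v‖ ≤ 4 * (C₀ + C') * ‖fderiv ℝ f' x v‖ :=
    fun x hx => lowD_of_close hf hFc hf' hC₀.le (by linarith)
      ((hsmallη _ (by linarith)).trans (by norm_num)) hη0 hlow₀ hFinj' hnear2 hd hx
  refine ⟨f', δ, hf', hδs, fun x => ?_, ⟨K'' ∪ K', hK''.union hK', union_subset
      (hK''L.trans (interior_subset.trans hLU)) hK'U, fun x hx => ?_⟩,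
    HasCompactSupport.intro hK' fun x hx => (hoff x hx).2,
    (closure_minimal (s := Function.support δ)
      (fun x hx => by_contra fun h => hx (hoff x h).2) hK'.isClosed).trans hK'U,
    fun x => ((hclose x).2).trans ?_, hδb, hmet, fun x hxU => ?_, fun hbt x hxU => ?_,
    fun hkt x hxU => ?_, fun x w hw hw0 => ?_⟩
  · by_cases hx : x ∈ interior L
    · exact injective_of_lower (hlowD x hx)
    · rw [(hd0 x hx).fderiv_eq]
      exact himm x
  · simp only [mem_union, not_or] at hx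
    rw [hout x hx.1, (hoff x hx.2).1]
  · exact (div_le_div_of_nonneg_right (le_max_left C 1) hM0.le).trans
      ((div_le_iff₀ hM0).2 (by
        rw [← div_le_iff₀' hε]
        linarith))
  · by_cases hx : x ∈ interior L
    · refine gdAt_of_den J ?_
      rw [← hD f' hf' x]
      exact lt_of_lt_of_le (by positivity) (hden' x hx)
    · exact (hgd x hxU).congr (hd0 x hx).symm
  · by_cases hx : x ∈ interior L
    · rw [II_ne_zero_iff (injective_of_lower (hlowD x hx))]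
      refine TT_injective_of_close hf hFc hf' hC₂.le hC'1
        ((hsmallη _ (by linarith)).trans (by norm_num)) hη0 (hlow₂ hbt) hFinj'
        (fun y hy => (hFjet l hlBox y hy 0 2 (by norm_num)).trans (by simp [hC']))
        (fun y hy => le_trans (inv_anti₀ ?_ (le_max_left C 1)) ((hFII hbt l hlBox y hy).1))
        hnear2 hd hx
      exact pos_of_bound (hFinj l hlBox y hy (ev 1))
    · rw [II_congr (hd0 x hx)]
      exact hb hbt x hxU
  · by_cases hx : x ∈ interior L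
    · refine II0_of_close hFc hf hf' (K := K) (A := A) (C := C') (Cp := Cp) (γ := γ) (W₀ := W₀)
        (by positivity)
        hC'1 hCp0 hγ hW₀0 (by linarith) (hlowD x hx) (fun hxK => ?_) (fun hxK => ?_)
        (fun n hn => hd x hx n hn) (fun n hn => (hdiff x hx n hn).trans hsmall2)
      · exact ⟨(hFjet l hlBox x (interior_subset hxK) 2 0 (by norm_num)).trans (by
            rw [pow_one]
            exact mul_le_mul_of_nonneg_right (le_max_left C 1) hM0.le),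
          (inv_anti₀ (pos_of_bound (hFinj l hlBox x (interior_subset hxK) (ev 1)))
            (le_max_left C 1)).trans (hFk hkt x (interior_subset hxK))⟩
      · exact ⟨hnear2 x hxK, hγl hkt x (interior_subset hx)⟩
    · rw [II_congr (hd0 x hx)]
      exact hkeep hkt x hxU
  · by_cases hx : x ∈ interior L
    · refine nrm_ne_zero_of_close hFc hf' (C := C') (by linarith) hη0 ?_ (hlowD x hx)
        (fun w hw => (hnrm x w hw).trans
          (mul_le_mul_of_nonneg_right (le_max_left C 1) (norm_nonneg _)))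
        (hd x hx 1 (by omega)) hw hw0
      exact nrm_arith (hsmallη (C' * C' + C₀ * C') (by linarith))
    · intro h0
      have e : nrm f' x w = nrm f x w := by simp [nrm, (hd0 x hx).fderiv_eq]
      exact hw0 (by rw [← hw, ← e, h0])

lemma expands_of_stmt {b : Bool} (hE : ExpandStmt b) {f : E2 → R4} {a : E2 → ℝ}
    {ν : E2 → Fin 2 → ℝ} {U : Set E2} (hf : ContDiff ℝ ∞ f) (himm : IsImm f)
    (ha : ContDiff ℝ ∞ a) (hac : HasCompactSupport a) (hν : ∀ i, ContDiff ℝ ∞ fun x => ν x i)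
    (hU : IsOpen U) (hgd : ∀ x ∈ U, GdAt f x)
    (hb : if b then ∀ x ∈ U, II f x (ev 1) ≠ 0 else ∀ x ∈ U, ν x 1 ≠ 0) :
    Expands b false f a ν U := by
  intro K K' hK hK' haK hKK' hK'U q
  simpa using hE f a ν U K K' hf himm ha hac hν hU hK hK' haK hKK' hK'U hgd hb q

theorem modTwistStmt (hE : ExpandStmt false) (hG : GoodProbStmt false) (hT : TransposeStmt)
    (hC : GdChartStmt.{0}) (hN : NMStmt) : ModTwistStmt := by
  intro f a ν U hf himm ha hac hU haU hν hν1 hgd ε hε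
  obtain ⟨f', δ, h1, h2, h3, h4, h5, h6, h7, -, h8, h9, -, -, h10⟩ :=
    twist_core false false hG hT hC hN
      (expands_of_stmt hE hf himm ha hac hν hU hgd hν1) (fun h => absurd h (by simp)) hf himm ha
      hac hU haU hν (fun h => absurd h (by simp)) hgd hε
  exact ⟨f', δ, h1, h2, h3, h4, h5, h6, h7, h8, h9, h10⟩

theorem finalTwistStmt (hE : ExpandStmt true) (hG : GoodProbStmt true) (hT : TransposeStmt)
    (hC : GdChartStmt.{0}) (hN : NMStmt) : FinalTwistStmt := by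
  intro f a U hf himm ha hac hU haU hgd hII
  obtain ⟨f', δ, h1, -, h3, h4, -, -, -, hδ, h8, h9, h10, -, -⟩ :=
    twist_core true false hG hT hC hN (ν := fun _ _ => 0)
      (expands_of_stmt hE hf himm ha hac (fun _ => contDiff_const) hU hgd hII)
      (fun h => absurd h (by simp)) hf himm ha hac hU haU
      (fun _ => contDiff_const) (fun _ => hII) hgd one_pos
  exact ⟨f', h1, h3, h4, fun x => by simp [h8 x, hδ rfl x], h9, h10 rfl⟩

end Vale.Agent.P205F.Twist
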